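import Mathlib

/-!
# P096: the two notions used in the statement

`kkDist M N` is the Kadison-Kastler distance of two von Neumann algebras on the same Hilbert
space and `CloseConj M N ε` says that `N = u M u*` for a unitary `u` with `‖u - 1‖ < ε`.
-/

namespace Vale.Agent.Lib.P096.H95

universe v

/-- the Kadison-Kastler distance: Hausdorff distance of the closed unit balls -/
noncomputable def kkDist {K : Type v} [NormedAddCommGroup K] [InnerProductSpace ℂ K]
    [CompleteSpace K] (M N : VonNeumannAlgebra K) : ℝ :=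
  Metric.hausdorffDist {x : K →L[ℂ] K | x ∈ M ∧ ‖x‖ ≤ 1} {x : K →L[ℂ] K | x ∈ N ∧ ‖x‖ ≤ 1}

/-- `N = u M u*` for a unitary `u` with `‖u - 1‖ < ε` -/
def CloseConj {K : Type v} [NormedAddCommGroup K] [InnerProductSpace ℂ K]
    [CompleteSpace K] (M N : VonNeumannAlgebra K) (ε : ℝ) : Prop :=
  ∃ u : K →L[ℂ] K, u ∈ unitary (K →L[ℂ] K) ∧ ‖u - 1‖ < ε ∧
    ∀ x : K →L[ℂ] K, x ∈ N ↔ ∃ y : K →L[ℂ] K, y ∈ M ∧ x = u * y * star u

end Vale.Agent.Lib.P096.H95
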