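import Vale.Agent.Lib.P096.helper95.Descend
import Vale.Agent.Lib.P096.helper95.Defs

/-!
# P096: the weaker form of the strong Kadison-Kastler conjecture in which `δ` may depend on the
algebra `M` is equivalent to the strong form (a direct sum argument)
-/

namespace Vale.Agent.Lib.P096.H95

open ContinuousLinearMap

universe u

theorem closeConj_mono {K : Type u} [NormedAddCommGroup K] [InnerProductSpace ℂ K]
    [CompleteSpace K] {M N : VonNeumannAlgebra K} {ε ε' : ℝ} (h : CloseConj M N ε)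
    (hε : ε ≤ ε') : CloseConj M N ε' := by
  obtain ⟨u, hu, hu1, hc⟩ := h
  exact ⟨u, hu, lt_of_lt_of_le hu1 hε, hc⟩

theorem ball_fin {K : Type u} [NormedAddCommGroup K] [InnerProductSpace ℂ K]
    [CompleteSpace K] (M N : VonNeumannAlgebra K) :
    Metric.hausdorffEDist {x : K →L[ℂ] K | x ∈ M ∧ ‖x‖ ≤ 1} {x : K →L[ℂ] K | x ∈ N ∧ ‖x‖ ≤ 1}
      ≠ ⊤ := by
  have hb : ∀ A : VonNeumannAlgebra K,
      Bornology.IsBounded {x : K →L[ℂ] K | x ∈ A ∧ ‖x‖ ≤ 1} := fun A =>
    (Metric.isBounded_closedBall (x := (0 : K →L[ℂ] K)) (r := 1)).subset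
      (fun x hx => by rw [Metric.mem_closedBall, dist_zero_right]; exact hx.2)
  have hn : ∀ A : VonNeumannAlgebra K, ({x : K →L[ℂ] K | x ∈ A ∧ ‖x‖ ≤ 1}).Nonempty := fun A =>
    ⟨0, zero_mem A, by simp⟩
  exact Metric.hausdorffEDist_ne_top_of_nonempty_of_bounded (hn M) (hn N) (hb M) (hb N)

section Model

variable {H : ℕ → Type u} [∀ k, NormedAddCommGroup (H k)] [∀ k, InnerProductSpace ℂ (H k)]
  [∀ k, CompleteSpace (H k)]

/-- the isometric inclusion of the `k`-th summand into the Hilbert sum -/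
noncomputable def incl (H : ℕ → Type u) [∀ k, NormedAddCommGroup (H k)]
    [∀ k, InnerProductSpace ℂ (H k)] (k : ℕ) : H k →L[ℂ] lp H 2 :=
  lp.singleContinuousLinearMap ℂ H 2 k

theorem incl_iso (k : ℕ) (v : H k) : adjoint (incl H k) (incl H k v) = v := by
  refine ext_inner_right ℂ (fun w => ?_)
  rw [adjoint_inner_left]
  show inner ℂ (lp.single 2 k v) (lp.single 2 k w) = inner ℂ v w
  rw [lp.inner_single_left, lp.single_apply_self]

theorem incl_orth (j k : ℕ) (hjk : j ≠ k) (v : H k) : adjoint (incl H j) (incl H k v) = 0 := by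
  refine ext_inner_right ℂ (fun w => ?_)
  rw [adjoint_inner_left]
  show inner ℂ (lp.single 2 k v) (lp.single 2 j w) = inner ℂ (0 : H j) w
  rw [lp.inner_single_left, lp.single_apply_ne 2 j w (Ne.symm hjk), inner_zero_right,
    inner_zero_left]

/-- the direct sum step: if the pairs `M k`, `N k` come arbitrarily close and the block-diagonal
algebra of the `M k` on the Hilbert sum is stable with tolerance `ε ≤ 1/2`, then some pair is
conjugate by a unitary within `ε` of the identity -/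
theorem key (M N : ∀ k, VonNeumannAlgebra (H k)) (ε : ℝ) (hε : ε ≤ 1 / 2)
    (hW : ∀ A : VonNeumannAlgebra (lp H 2), ∃ δ : ℝ, 0 < δ ∧
      ∀ B : VonNeumannAlgebra (lp H 2), kkDist A B < δ → CloseConj A B ε)
    (hd : ∀ δ : ℝ, 0 < δ → ∃ k, kkDist (M k) (N k) < δ) :
    ∃ k, CloseConj (M k) (N k) ε := by
  have hi : ∀ k (v : H k), adjoint (incl H k) (incl H k v) = v := incl_iso
  have ho : ∀ j k, j ≠ k → ∀ v : H k, adjoint (incl H j) (incl H k v) = 0 := incl_orth
  obtain ⟨δ, hδ, hA⟩ := hW (diagAlg (incl H) hi M)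
  obtain ⟨k, hk⟩ := hd δ hδ
  obtain ⟨r, hr1, hr2⟩ := exists_between hk
  have hBk : Function.update M k (N k) k = N k := Function.update_self _ _ _
  have hBj : ∀ j, j ≠ k → M j = Function.update M k (N k) j := fun j hj =>
    (Function.update_of_ne hj _ _).symm
  have hr0 : 0 ≤ r := le_trans Metric.hausdorffDist_nonneg hr1.le
  have hclose : kkDist (diagAlg (incl H) hi M) (diagAlg (incl H) hi (Function.update M k (N k)))
      < δ := by
    refine lt_of_le_of_lt (Metric.hausdorffDist_le_of_mem_dist hr0 ?_ ?_) hr2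
    · rintro X ⟨hX, hX1⟩
      have hT : cmp (incl H) k X ∈ {x : H k →L[ℂ] H k | x ∈ M k ∧ ‖x‖ ≤ 1} :=
        ⟨hX.2 k, (norm_cmp_le hi k X).trans hX1⟩
      obtain ⟨S, ⟨hS, hS1⟩, hTS⟩ :=
        Metric.exists_dist_lt_of_hausdorffDist_lt hT hr1 (ball_fin (M k) (N k))
      have hS' : S ∈ Function.update M k (N k) k := by rw [hBk]; exact hS
      obtain ⟨Y, hY, hY1, hXY⟩ :=
        replace_near hi ho M (Function.update M k (N k)) k hBj hX hX1 hS' hS1 hTS.le
      exact ⟨Y, ⟨hY, hY1⟩, hXY⟩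
    · rintro Y ⟨hY, hY1⟩
      have hT : cmp (incl H) k Y ∈ {x : H k →L[ℂ] H k | x ∈ N k ∧ ‖x‖ ≤ 1} := by
        refine ⟨?_, (norm_cmp_le hi k Y).trans hY1⟩
        rw [← hBk]
        exact hY.2 k
      obtain ⟨S, ⟨hS, hS1⟩, hTS⟩ :=
        Metric.exists_dist_lt_of_hausdorffDist_lt' hT hr1 (ball_fin (M k) (N k))
      have hTS' : dist (cmp (incl H) k Y) S ≤ r := by
        rw [dist_comm]
        exact hTS.le
      obtain ⟨X, hX, hX1, hYX⟩ :=
        replace_near hi ho (Function.update M k (N k)) M k (fun j hj => (hBj j hj).symm)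
          hY hY1 hS hS1 hTS'
      exact ⟨X, ⟨hX, hX1⟩, hYX⟩
  obtain ⟨u, hu, hu1, hconj⟩ := hA _ hclose
  obtain ⟨h1, h2, h3⟩ :=
    descend hi ho M (Function.update M k (N k)) hu (lt_of_lt_of_le hu1 hε) hconj k
  refine ⟨k, cmp (incl H) k u, h1, lt_of_le_of_lt h2 hu1, ?_⟩
  intro x
  rw [← hBk]
  exact h3 x

end Model

/-- The strong form of the Kadison-Kastler conjecture is equivalent to its weaker form in which
`δ` may depend on the Hilbert space and on the algebra `M`. -/
theorem main_equiv :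
    (∀ ε : ℝ, 0 < ε → ∃ δ : ℝ, 0 < δ ∧
      ∀ (K : Type u) [NormedAddCommGroup K] [InnerProductSpace ℂ K] [CompleteSpace K]
        (M N : VonNeumannAlgebra K), kkDist M N < δ → CloseConj M N ε) ↔
    (∀ (K : Type u) [NormedAddCommGroup K] [InnerProductSpace ℂ K] [CompleteSpace K]
        (M : VonNeumannAlgebra K) (ε : ℝ), 0 < ε → ∃ δ : ℝ, 0 < δ ∧
          ∀ N : VonNeumannAlgebra K, kkDist M N < δ → CloseConj M N ε) := by
  constructor
  · intro hS K _ _ _ M ε hε
    obtain ⟨δ, hδ, h⟩ := hS ε hε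
    exact ⟨δ, hδ, fun N hN => h K M N hN⟩
  · intro hW ε hε
    have hε' : 0 < min ε (1 / 2) := lt_min hε (by norm_num)
    have hclaim : ∃ δ : ℝ, 0 < δ ∧
        ∀ (K : Type u) [NormedAddCommGroup K] [InnerProductSpace ℂ K] [CompleteSpace K]
          (M N : VonNeumannAlgebra K), kkDist M N < δ → CloseConj M N (min ε (1 / 2)) := by
      by_contra hneg
      push Not at hneg
      choose H i1 i2 i3 M N hdist hbad using
        fun k : ℕ => hneg (1 / ((k : ℝ) + 1)) (by positivity)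
      obtain ⟨k, hk⟩ := @key H i1 i2 i3 M N (min ε (1 / 2)) (min_le_right _ _)
        (fun A => hW (lp H 2) A (min ε (1 / 2)) hε')
        (fun δ hδ => by
          obtain ⟨n, hn⟩ := exists_nat_one_div_lt hδ
          exact ⟨n, lt_trans (hdist n) hn⟩)
      exact hbad k hk
    obtain ⟨δ, hδ, h⟩ := hclaim
    exact ⟨δ, hδ, fun K _ _ _ M N hMN => closeConj_mono (h K M N hMN) (min_le_left _ _)⟩

end Vale.Agent.Lib.P096.H95
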