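import Vale.Agent.Lib.P096.helper95.DirectSum

/-!
# P096: norms, replacement of one block, and descent of a close unitary to one block
-/

namespace Vale.Agent.Lib.P096.H95

open ContinuousLinearMap

universe u

section Abstract

variable {ι : Type} {E : Type u} [NormedAddCommGroup E] [InnerProductSpace ℂ E] [CompleteSpace E]
variable {H : ι → Type u} [∀ k, NormedAddCommGroup (H k)] [∀ k, InnerProductSpace ℂ (H k)]
  [∀ k, CompleteSpace (H k)]

theorem norm_V {V : ∀ k, H k →L[ℂ] E} (hi : ∀ k v, adjoint (V k) (V k v) = v)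
    (k : ι) (v : H k) : ‖V k v‖ = ‖v‖ := by
  have h : inner ℂ (V k v) (V k v) = inner ℂ v v := by
    rw [← adjoint_inner_left, hi]
  have h2 : ‖V k v‖ ^ 2 = ‖v‖ ^ 2 := by
    have h3 := congrArg Complex.re h
    rw [inner_self_eq_norm_sq_to_K, inner_self_eq_norm_sq_to_K] at h3
    norm_cast at h3
  exact (sq_eq_sq₀ (norm_nonneg _) (norm_nonneg _)).mp h2

theorem norm_V_le {V : ∀ k, H k →L[ℂ] E} (hi : ∀ k v, adjoint (V k) (V k v) = v)
    (k : ι) : ‖V k‖ ≤ 1 :=
  opNorm_le_bound _ zero_le_one (fun v => by rw [norm_V hi, one_mul])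

theorem norm_W_le {V : ∀ k, H k →L[ℂ] E} (hi : ∀ k v, adjoint (V k) (V k v) = v)
    (k : ι) : ‖adjoint (V k)‖ ≤ 1 := by
  rw [LinearIsometryEquiv.norm_map]
  exact norm_V_le hi k

theorem norm_W_apply_le {V : ∀ k, H k →L[ℂ] E} (hi : ∀ k v, adjoint (V k) (V k v) = v)
    (k : ι) (e : E) : ‖adjoint (V k) e‖ ≤ ‖e‖ := by
  have h := (adjoint (V k)).le_opNorm e
  have h2 := norm_W_le hi k
  calc ‖adjoint (V k) e‖ ≤ ‖adjoint (V k)‖ * ‖e‖ := h
    _ ≤ 1 * ‖e‖ := by gcongr
    _ = ‖e‖ := one_mul _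

theorem norm_cmp_le {V : ∀ k, H k →L[ℂ] E} (hi : ∀ k v, adjoint (V k) (V k v) = v)
    (k : ι) (X : E →L[ℂ] E) : ‖cmp V k X‖ ≤ ‖X‖ := by
  refine opNorm_le_bound _ (norm_nonneg _) (fun v => ?_)
  rw [cmp_apply]
  calc ‖adjoint (V k) (X (V k v))‖ ≤ ‖X (V k v)‖ := norm_W_apply_le hi k _
    _ ≤ ‖X‖ * ‖V k v‖ := X.le_opNorm _
    _ = ‖X‖ * ‖v‖ := by rw [norm_V hi]

theorem norm_infl_le {V : ∀ k, H k →L[ℂ] E} (hi : ∀ k v, adjoint (V k) (V k v) = v)
    (k : ι) (T : H k →L[ℂ] H k) : ‖infl V k T‖ ≤ ‖T‖ := by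
  refine opNorm_le_bound _ (norm_nonneg _) (fun e => ?_)
  rw [infl_apply, norm_V hi]
  calc ‖T (adjoint (V k) e)‖ ≤ ‖T‖ * ‖adjoint (V k) e‖ := T.le_opNorm _
    _ ≤ ‖T‖ * ‖e‖ := by gcongr; exact norm_W_apply_le hi k e

theorem norm_prj_le {V : ∀ k, H k →L[ℂ] E} (hi : ∀ k v, adjoint (V k) (V k v) = v)
    (k : ι) : ‖prj V k‖ ≤ 1 := by
  refine opNorm_le_bound _ zero_le_one (fun e => ?_)
  rw [prj_apply, norm_V hi, one_mul]
  exact norm_W_apply_le hi k e

theorem infl_one (V : ∀ k, H k →L[ℂ] E) (k : ι) : infl V k 1 = prj V k := rfl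

theorem prj_comm_prj {V : ∀ k, H k →L[ℂ] E} (hi : ∀ k v, adjoint (V k) (V k v) = v)
    (ho : ∀ j k, j ≠ k → ∀ v, adjoint (V j) (V k v) = 0) (j k : ι) :
    prj V k * prj V j = prj V j * prj V k := by
  rw [← infl_one V k]
  exact infl_comm_prj hi ho j k 1

theorem infl_mem_diagAlg {V : ∀ k, H k →L[ℂ] E} (hi : ∀ k v, adjoint (V k) (V k v) = v)
    (ho : ∀ j k, j ≠ k → ∀ v, adjoint (V j) (V k v) = 0)
    (A : ∀ k, VonNeumannAlgebra (H k)) (k : ι) {T : H k →L[ℂ] H k} (hT : T ∈ A k) :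
    infl V k T ∈ diagAlg V hi A := by
  refine ⟨fun j => infl_comm_prj hi ho j k T, fun j => ?_⟩
  by_cases hjk : j = k
  · subst hjk
    rw [cmp_infl_self hi]
    exact hT
  · rw [cmp_infl_ne ho hjk]
    exact zero_mem _

theorem prj_mem_diagAlg {V : ∀ k, H k →L[ℂ] E} (hi : ∀ k v, adjoint (V k) (V k v) = v)
    (ho : ∀ j k, j ≠ k → ∀ v, adjoint (V j) (V k v) = 0)
    (A : ∀ k, VonNeumannAlgebra (H k)) (k : ι) : prj V k ∈ diagAlg V hi A := by
  rw [← infl_one V k]
  exact infl_mem_diagAlg hi ho A k (one_mem _)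

theorem infl_sub (V : ∀ k, H k →L[ℂ] E) (k : ι) (S T : H k →L[ℂ] H k) :
    infl V k (S - T) = infl V k S - infl V k T := by
  ext e
  simp [infl_apply]

theorem infl_cmp {V : ∀ k, H k →L[ℂ] E} (hi : ∀ k v, adjoint (V k) (V k v) = v)
    {k : ι} {X : E →L[ℂ] E} (hX : X * prj V k = prj V k * X) :
    infl V k (cmp V k X) = X * prj V k := by
  ext e
  show V k (adjoint (V k) (X (V k (adjoint (V k) e)))) = X (V k (adjoint (V k) e))
  exact (comm_V hi hX _).symm

theorem inner_V_right (V : ∀ k, H k →L[ℂ] E) (k : ι) (a : E) (s : H k) :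
    inner ℂ a (V k s) = inner ℂ (adjoint (V k) a) s :=
  (adjoint_inner_left (V k) s a).symm

/-- replacing the `k`-th block of a contraction in the block-diagonal algebra of `A` by a
contraction `S` of `B k`, where `B` agrees with `A` off `k` -/
theorem replace_near {V : ∀ k, H k →L[ℂ] E} (hi : ∀ k v, adjoint (V k) (V k v) = v)
    (ho : ∀ j k, j ≠ k → ∀ v, adjoint (V j) (V k v) = 0)
    (A B : ∀ k, VonNeumannAlgebra (H k)) (k : ι) (hAB : ∀ j, j ≠ k → A j = B j) {r : ℝ}
    {X : E →L[ℂ] E} (hX : X ∈ diagAlg V hi A) (hX1 : ‖X‖ ≤ 1)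
    {S : H k →L[ℂ] H k} (hS : S ∈ B k) (hS1 : ‖S‖ ≤ 1) (hr : dist (cmp V k X) S ≤ r) :
    ∃ Y, Y ∈ diagAlg V hi B ∧ ‖Y‖ ≤ 1 ∧ dist X Y ≤ r := by
  have hXc := hX.1
  have hXm := hX.2
  refine ⟨X * (1 - prj V k) + infl V k S, ⟨fun j => ?_, fun j => ?_⟩, ?_, ?_⟩
  · have hc : (1 - prj V k) * prj V j = prj V j * (1 - prj V k) := by
      rw [sub_mul, mul_sub, one_mul, mul_one, prj_comm_prj hi ho j k]
    rw [add_mul, mul_add, infl_comm_prj hi ho j k S, mul_assoc, hc, ← mul_assoc, hXc j,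
      mul_assoc]
  · rw [cmp_add]
    by_cases hjk : j = k
    · subst hjk
      have h0 : cmp V j (X * (1 - prj V j)) = 0 := by
        ext v
        simp [cmp_apply, prj_apply, hi]
      rw [h0, zero_add, cmp_infl_self hi]
      exact hS
    · have h0 : cmp V j (X * (1 - prj V k)) = cmp V j X := by
        ext v
        simp [cmp_apply, prj_apply, ho k j (Ne.symm hjk)]
      rw [h0, cmp_infl_ne ho hjk, add_zero, ← hAB j hjk]
      exact hXm j
  · refine opNorm_le_bound _ zero_le_one (fun e => ?_)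
    rw [one_mul]
    have hYe : (X * (1 - prj V k) + infl V k S) e
        = X (e - V k (adjoint (V k) e)) + V k (S (adjoint (V k) e)) := rfl
    rw [hYe]
    have ha : X (e - V k (adjoint (V k) e)) = X e - V k (adjoint (V k) (X e)) := by
      rw [map_sub, comm_apply (hXc k) e]
    have horth : inner ℂ (X (e - V k (adjoint (V k) e))) (V k (S (adjoint (V k) e))) = 0 := by
      rw [ha, inner_V_right, map_sub, hi, sub_self, inner_zero_left]
    have horth2 : inner ℂ (e - V k (adjoint (V k) e)) (V k (adjoint (V k) e)) = 0 := by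
      rw [inner_V_right, map_sub, hi, sub_self, inner_zero_left]
    have h1 := norm_add_sq_eq_norm_sq_add_norm_sq_of_inner_eq_zero _ _ horth
    have h2 := norm_add_sq_eq_norm_sq_add_norm_sq_of_inner_eq_zero _ _ horth2
    rw [sub_add_cancel] at h2
    have hA : ‖X (e - V k (adjoint (V k) e))‖ ≤ ‖e - V k (adjoint (V k) e)‖ := by
      calc ‖X (e - V k (adjoint (V k) e))‖ ≤ ‖X‖ * ‖e - V k (adjoint (V k) e)‖ := X.le_opNorm _
        _ ≤ 1 * ‖e - V k (adjoint (V k) e)‖ := by gcongr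
        _ = ‖e - V k (adjoint (V k) e)‖ := one_mul _
    have hB : ‖V k (S (adjoint (V k) e))‖ ≤ ‖V k (adjoint (V k) e)‖ := by
      rw [norm_V hi, norm_V hi]
      calc ‖S (adjoint (V k) e)‖ ≤ ‖S‖ * ‖adjoint (V k) e‖ := S.le_opNorm _
        _ ≤ 1 * ‖adjoint (V k) e‖ := by gcongr
        _ = ‖adjoint (V k) e‖ := one_mul _
    rw [mul_self_le_mul_self_iff (norm_nonneg _) (norm_nonneg _), h1, h2]
    have hA' := mul_self_le_mul_self (norm_nonneg _) hA
    have hB' := mul_self_le_mul_self (norm_nonneg _) hB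
    linarith
  · have hd : X - (X * (1 - prj V k) + infl V k S) = infl V k (cmp V k X - S) := by
      rw [infl_sub, infl_cmp hi (hXc k), mul_sub, mul_one]
      abel
    rw [dist_eq_norm, hd]
    calc ‖infl V k (cmp V k X - S)‖ ≤ ‖cmp V k X - S‖ := norm_infl_le hi k _
      _ = dist (cmp V k X) S := (dist_eq_norm _ _).symm
      _ ≤ r := hr

theorem norm_le_one_of_unitary {u : E →L[ℂ] E} (hu : u ∈ unitary (E →L[ℂ] E)) : ‖u‖ ≤ 1 :=
  opNorm_le_bound _ zero_le_one (fun e => by rw [norm_map_of_mem_unitary hu, one_mul])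

/-- a unitary within `1/2` of the identity that conjugates one block-diagonal algebra onto
another commutes with the block projections, and its compressions conjugate the blocks -/
theorem descend {V : ∀ k, H k →L[ℂ] E} (hi : ∀ k v, adjoint (V k) (V k v) = v)
    (ho : ∀ j k, j ≠ k → ∀ v, adjoint (V j) (V k v) = 0)
    (A B : ∀ k, VonNeumannAlgebra (H k))
    {u : E →L[ℂ] E} (hu : u ∈ unitary (E →L[ℂ] E)) (hu1 : ‖u - 1‖ < 1 / 2)
    (hconj : ∀ x, x ∈ diagAlg V hi B ↔ ∃ y, y ∈ diagAlg V hi A ∧ x = u * y * star u) (k : ι) :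
    cmp V k u ∈ unitary (H k →L[ℂ] H k) ∧ ‖cmp V k u - 1‖ ≤ ‖u - 1‖ ∧
      ∀ x, x ∈ B k ↔ ∃ y, y ∈ A k ∧ x = cmp V k u * y * star (cmp V k u) := by
  have hsu : star u * u = 1 := Unitary.star_mul_self_of_mem hu
  have hus : u * star u = 1 := Unitary.mul_star_self_of_mem hu
  have hpp : prj V k * prj V k = prj V k := by
    ext e
    show V k (adjoint (V k) (V k (adjoint (V k) e))) = V k (adjoint (V k) e)
    rw [hi]
  have hq : u * prj V k * star u ∈ diagAlg V hi B :=
    (hconj _).mpr ⟨prj V k, prj_mem_diagAlg hi ho A k, rfl⟩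
  have hqp : u * prj V k * star u * prj V k = prj V k * (u * prj V k * star u) := hq.1 k
  have hqq : u * prj V k * star u * (u * prj V k * star u) = u * prj V k * star u := by
    simp only [mul_assoc]
    rw [← mul_assoc (star u) u, hsu, one_mul, ← mul_assoc (prj V k) (prj V k), hpp]
  -- the difference `d = q - p` satisfies `d ^ 3 = d` and has norm `< 1`, so it vanishes
  obtain ⟨q, hqdef⟩ : ∃ q, q = u * prj V k * star u := ⟨_, rfl⟩
  rw [← hqdef] at hqp hqq hq
  have e1 : q * prj V k * q = q * prj V k := by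
    rw [mul_assoc, ← hqp, ← mul_assoc, hqq]
  have e2 : q * prj V k * prj V k = q * prj V k := by rw [mul_assoc, hpp]
  have e3 : prj V k * q = q * prj V k := hqp.symm
  have hd3 : (q - prj V k) * (q - prj V k) * (q - prj V k) = q - prj V k := by
    simp only [sub_mul, mul_sub, hqq, hpp, e1, e2, e3]
    abel
  have hdform : q - prj V k = ((u - 1) * prj V k - prj V k * (u - 1)) * star u := by
    simp only [sub_mul, mul_sub, one_mul, mul_one]
    rw [mul_assoc (prj V k) u, hus, mul_one, hqdef]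
    abel
  have hstar1 : ‖star u‖ ≤ 1 := norm_le_one_of_unitary (Unitary.star_mem hu)
  have hp1 : ‖prj V k‖ ≤ 1 := norm_prj_le hi k
  have hdn : ‖q - prj V k‖ < 1 := by
    rw [hdform]
    have h1 : ‖(u - 1) * prj V k‖ ≤ ‖u - 1‖ * 1 :=
      (norm_mul_le _ _).trans (by gcongr)
    have h2 : ‖prj V k * (u - 1)‖ ≤ 1 * ‖u - 1‖ :=
      (norm_mul_le _ _).trans (by gcongr)
    have h3 : ‖(u - 1) * prj V k - prj V k * (u - 1)‖ ≤ ‖u - 1‖ * 1 + 1 * ‖u - 1‖ :=
      (norm_sub_le _ _).trans (add_le_add h1 h2)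
    have h4 : ‖((u - 1) * prj V k - prj V k * (u - 1)) * star u‖
        ≤ (‖u - 1‖ * 1 + 1 * ‖u - 1‖) * 1 :=
      (norm_mul_le _ _).trans (by gcongr)
    linarith
  have hd0 : q - prj V k = 0 := by
    by_contra hne
    have hpos : 0 < ‖q - prj V k‖ := norm_pos_iff.mpr hne
    have h5 : ‖q - prj V k‖ ≤ ‖q - prj V k‖ * ‖q - prj V k‖ * ‖q - prj V k‖ := by
      calc ‖q - prj V k‖ = ‖(q - prj V k) * (q - prj V k) * (q - prj V k)‖ := by rw [hd3]
        _ ≤ ‖(q - prj V k) * (q - prj V k)‖ * ‖q - prj V k‖ := norm_mul_le _ _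
        _ ≤ ‖q - prj V k‖ * ‖q - prj V k‖ * ‖q - prj V k‖ := by
            gcongr
            exact norm_mul_le _ _
    nlinarith
  have hqeq : u * prj V k * star u = prj V k := by
    rw [← hqdef]
    exact sub_eq_zero.mp hd0
  have hup : u * prj V k = prj V k * u := by
    have h := congrArg (fun z => z * u) hqeq
    simp only [mul_assoc, hsu, mul_one] at h
    exact h
  have hsp : star u * prj V k = prj V k * star u := by
    calc star u * prj V k = star u * prj V k * (u * star u) := by rw [hus, mul_one]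
      _ = star u * (prj V k * u) * star u := by simp only [mul_assoc]
      _ = star u * (u * prj V k) * star u := by rw [hup]
      _ = star u * u * prj V k * star u := by simp only [mul_assoc]
      _ = prj V k * star u := by rw [hsu, one_mul]
  have hcu : star (cmp V k u) = cmp V k (star u) := (cmp_star V k u).symm
  have hunit : cmp V k u ∈ unitary (H k →L[ℂ] H k) := by
    rw [Unitary.mem_iff, hcu]
    constructor
    · rw [← cmp_mul hi (star u) hup, hsu, cmp_one hi]
    · rw [← cmp_mul hi u hsp, hus, cmp_one hi]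
  refine ⟨hunit, ?_, ?_⟩
  · have h : cmp V k u - 1 = cmp V k (u - 1) := by rw [cmp_sub, cmp_one hi]
    rw [h]
    exact norm_cmp_le hi k _
  · intro x
    constructor
    · intro hx
      obtain ⟨y, hy, hxy⟩ := (hconj (infl V k x)).mp (infl_mem_diagAlg hi ho B k hx)
      refine ⟨cmp V k y, hy.2 k, ?_⟩
      have h := congrArg (cmp V k) hxy
      rw [cmp_infl_self hi, cmp_mul hi (u * y) hsp, cmp_mul hi u (hy.1 k)] at h
      rw [hcu]
      exact h
    · rintro ⟨y, hy, hxy⟩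
      have hmem : u * infl V k y * star u ∈ diagAlg V hi B :=
        (hconj _).mpr ⟨infl V k y, infl_mem_diagAlg hi ho A k hy, rfl⟩
      have h := hmem.2 k
      rw [cmp_mul hi (u * infl V k y) hsp, cmp_mul hi u (infl_comm_prj hi ho k k y),
        cmp_infl_self hi, ← hcu, ← hxy] at h
      exact h

end Abstract

end Vale.Agent.Lib.P096.H95
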