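import Mathlib

/-!
# P096: block-diagonal von Neumann algebras over an orthogonal family of isometries

`V k : H k →L[ℂ] E` are isometries with pairwise orthogonal ranges (hypotheses `hi`, `ho`,
stated through the adjoints).  For a family `A k` of von Neumann algebras on the `H k` the
block-diagonal algebra `diagAlg` consists of the operators on `E` that commute with every
range projection `V k ∘ (V k)†` and whose `k`-th compression lies in `A k`.
-/

namespace Vale.Agent.Lib.P096.H95

open ContinuousLinearMap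

universe u

section Abstract

variable {ι : Type} {E : Type u} [NormedAddCommGroup E] [InnerProductSpace ℂ E] [CompleteSpace E]
variable {H : ι → Type u} [∀ k, NormedAddCommGroup (H k)] [∀ k, InnerProductSpace ℂ (H k)]
  [∀ k, CompleteSpace (H k)]

/-- compression of an operator on `E` to the `k`-th summand -/
noncomputable def cmp (V : ∀ k, H k →L[ℂ] E) (k : ι) (X : E →L[ℂ] E) : H k →L[ℂ] H k :=
  (adjoint (V k)).comp (X.comp (V k))

/-- inflation of an operator on the `k`-th summand to `E` -/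
noncomputable def infl (V : ∀ k, H k →L[ℂ] E) (k : ι) (T : H k →L[ℂ] H k) : E →L[ℂ] E :=
  (V k).comp (T.comp (adjoint (V k)))

/-- the projection of `E` onto the `k`-th summand -/
noncomputable def prj (V : ∀ k, H k →L[ℂ] E) (k : ι) : E →L[ℂ] E :=
  (V k).comp (adjoint (V k))

theorem prj_apply (V : ∀ k, H k →L[ℂ] E) (k : ι) (e : E) :
    prj V k e = V k (adjoint (V k) e) := rfl

theorem cmp_apply (V : ∀ k, H k →L[ℂ] E) (k : ι) (X : E →L[ℂ] E) (v : H k) :
    cmp V k X v = adjoint (V k) (X (V k v)) := rfl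

theorem infl_apply (V : ∀ k, H k →L[ℂ] E) (k : ι) (T : H k →L[ℂ] H k) (e : E) :
    infl V k T e = V k (T (adjoint (V k) e)) := rfl

theorem comm_apply {V : ∀ k, H k →L[ℂ] E} {k : ι} {X : E →L[ℂ] E}
    (hX : X * prj V k = prj V k * X) (e : E) :
    X (V k (adjoint (V k) e)) = V k (adjoint (V k) (X e)) :=
  DFunLike.congr_fun hX e

theorem comm_V {V : ∀ k, H k →L[ℂ] E} (hi : ∀ k v, adjoint (V k) (V k v) = v)
    {k : ι} {X : E →L[ℂ] E} (hX : X * prj V k = prj V k * X) (v : H k) :
    X (V k v) = V k (adjoint (V k) (X (V k v))) := by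
  have h := comm_apply hX (V k v)
  rw [hi] at h
  exact h

theorem star_prj (V : ∀ k, H k →L[ℂ] E) (k : ι) : star (prj V k) = prj V k := by
  rw [star_eq_adjoint]
  unfold prj
  rw [adjoint_comp, adjoint_adjoint]

theorem cmp_mul {V : ∀ k, H k →L[ℂ] E} (hi : ∀ k v, adjoint (V k) (V k v) = v)
    {k : ι} (X : E →L[ℂ] E) {Y : E →L[ℂ] E} (hY : Y * prj V k = prj V k * Y) :
    cmp V k (X * Y) = cmp V k X * cmp V k Y := by
  ext v
  show adjoint (V k) (X (Y (V k v))) = adjoint (V k) (X (V k (adjoint (V k) (Y (V k v)))))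
  rw [← comm_V hi hY v]

theorem cmp_star (V : ∀ k, H k →L[ℂ] E) (k : ι) (X : E →L[ℂ] E) :
    cmp V k (star X) = star (cmp V k X) := by
  rw [star_eq_adjoint, star_eq_adjoint]
  unfold cmp
  rw [adjoint_comp, adjoint_comp, adjoint_adjoint]
  rfl

theorem cmp_add (V : ∀ k, H k →L[ℂ] E) (k : ι) (X Y : E →L[ℂ] E) :
    cmp V k (X + Y) = cmp V k X + cmp V k Y := by
  ext v
  simp [cmp_apply]

theorem cmp_sub (V : ∀ k, H k →L[ℂ] E) (k : ι) (X Y : E →L[ℂ] E) :
    cmp V k (X - Y) = cmp V k X - cmp V k Y := by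
  ext v
  simp [cmp_apply]

theorem cmp_zero (V : ∀ k, H k →L[ℂ] E) (k : ι) : cmp V k 0 = 0 := by
  ext v
  simp [cmp_apply]

theorem cmp_algebraMap {V : ∀ k, H k →L[ℂ] E} (hi : ∀ k v, adjoint (V k) (V k v) = v)
    (k : ι) (c : ℂ) :
    cmp V k (algebraMap ℂ (E →L[ℂ] E) c) = algebraMap ℂ (H k →L[ℂ] H k) c := by
  ext v
  simp [cmp_apply, Algebra.algebraMap_eq_smul_one, hi]

theorem cmp_one {V : ∀ k, H k →L[ℂ] E} (hi : ∀ k v, adjoint (V k) (V k v) = v)
    (k : ι) : cmp V k 1 = 1 := by
  ext v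
  simp [cmp_apply, hi]

theorem cmp_infl_self {V : ∀ k, H k →L[ℂ] E} (hi : ∀ k v, adjoint (V k) (V k v) = v)
    (k : ι) (T : H k →L[ℂ] H k) : cmp V k (infl V k T) = T := by
  ext v
  simp [cmp_apply, infl_apply, hi]

theorem cmp_infl_ne {V : ∀ k, H k →L[ℂ] E}
    (ho : ∀ j k, j ≠ k → ∀ v, adjoint (V j) (V k v) = 0)
    {j k : ι} (hjk : j ≠ k) (T : H k →L[ℂ] H k) : cmp V j (infl V k T) = 0 := by
  ext v
  simp [cmp_apply, infl_apply, ho j k hjk]

theorem infl_comm_prj {V : ∀ k, H k →L[ℂ] E} (hi : ∀ k v, adjoint (V k) (V k v) = v)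
    (ho : ∀ j k, j ≠ k → ∀ v, adjoint (V j) (V k v) = 0)
    (j k : ι) (T : H k →L[ℂ] H k) : infl V k T * prj V j = prj V j * infl V k T := by
  ext e
  show V k (T (adjoint (V k) (V j (adjoint (V j) e))))
    = V j (adjoint (V j) (V k (T (adjoint (V k) e))))
  by_cases hjk : j = k
  · subst hjk
    rw [hi, hi]
  · rw [ho k j (Ne.symm hjk), ho j k hjk]
    simp

/-- the carrier of the block-diagonal algebra -/
def diagSet (V : ∀ k, H k →L[ℂ] E) (A : ∀ k, VonNeumannAlgebra (H k)) : Set (E →L[ℂ] E) :=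
  {X | (∀ k, X * prj V k = prj V k * X) ∧ ∀ k, cmp V k X ∈ A k}

theorem mem_diagSet {V : ∀ k, H k →L[ℂ] E} {A : ∀ k, VonNeumannAlgebra (H k)}
    {X : E →L[ℂ] E} :
    X ∈ diagSet V A ↔ (∀ k, X * prj V k = prj V k * X) ∧ ∀ k, cmp V k X ∈ A k := Iff.rfl

/-- the block-diagonal algebra as a star subalgebra -/
noncomputable def diagStar (V : ∀ k, H k →L[ℂ] E) (hi : ∀ k v, adjoint (V k) (V k v) = v)
    (A : ∀ k, VonNeumannAlgebra (H k)) : StarSubalgebra ℂ (E →L[ℂ] E) where
  carrier := diagSet V A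
  mul_mem' := by
    intro X Y hX hY
    refine ⟨fun k => ?_, fun k => ?_⟩
    · rw [mul_assoc, hY.1 k, ← mul_assoc, hX.1 k, mul_assoc]
    · rw [cmp_mul hi X (hY.1 k)]
      exact mul_mem (hX.2 k) (hY.2 k)
  one_mem' := by
    refine ⟨fun k => ?_, fun k => ?_⟩
    · rw [one_mul, mul_one]
    · rw [cmp_one hi]
      exact one_mem _
  add_mem' := by
    intro X Y hX hY
    refine ⟨fun k => ?_, fun k => ?_⟩
    · rw [add_mul, mul_add, hX.1 k, hY.1 k]
    · rw [cmp_add]
      exact add_mem (hX.2 k) (hY.2 k)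
  zero_mem' := by
    refine ⟨fun k => ?_, fun k => ?_⟩
    · rw [zero_mul, mul_zero]
    · rw [cmp_zero]
      exact zero_mem _
  algebraMap_mem' := by
    intro c
    refine ⟨fun k => ?_, fun k => ?_⟩
    · exact Algebra.commutes c (prj V k)
    · rw [cmp_algebraMap hi]
      exact (A k).toStarSubalgebra.algebraMap_mem c
  star_mem' := by
    intro X hX
    refine ⟨fun k => ?_, fun k => ?_⟩
    · have h := congrArg star (hX.1 k)
      rw [star_mul, star_mul, star_prj] at h
      exact h.symm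
    · rw [cmp_star]
      exact star_mem (hX.2 k)

theorem prj_mem_centralizer (V : ∀ k, H k →L[ℂ] E) (A : ∀ k, VonNeumannAlgebra (H k)) (k : ι) :
    prj V k ∈ Set.centralizer (diagSet V A) := by
  intro X hX
  exact hX.1 k

theorem infl_mem_centralizer {V : ∀ k, H k →L[ℂ] E} (hi : ∀ k v, adjoint (V k) (V k v) = v)
    (A : ∀ k, VonNeumannAlgebra (H k)) (k : ι) {S : H k →L[ℂ] H k}
    (hS : S ∈ Set.centralizer ((A k : Set (H k →L[ℂ] H k)))) :
    infl V k S ∈ Set.centralizer (diagSet V A) := by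
  intro X hX
  ext e
  show X (V k (S (adjoint (V k) e))) = V k (S (adjoint (V k) (X e)))
  have h1 : X (V k (S (adjoint (V k) e)))
      = V k (adjoint (V k) (X (V k (S (adjoint (V k) e))))) := comm_V hi (hX.1 k) _
  have h2 : adjoint (V k) (X (V k (S (adjoint (V k) e))))
      = S (adjoint (V k) (X (V k (adjoint (V k) e)))) := by
    have h := DFunLike.congr_fun (hS (cmp V k X) (hX.2 k)) (adjoint (V k) e)
    exact h
  have h3 : adjoint (V k) (X (V k (adjoint (V k) e))) = adjoint (V k) (X e) := by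
    rw [comm_apply (hX.1 k) e, hi]
  rw [h1, h2, h3]

/-- the block-diagonal von Neumann algebra of a family of von Neumann algebras -/
noncomputable def diagAlg (V : ∀ k, H k →L[ℂ] E) (hi : ∀ k v, adjoint (V k) (V k v) = v)
    (A : ∀ k, VonNeumannAlgebra (H k)) : VonNeumannAlgebra E where
  toStarSubalgebra := diagStar V hi A
  centralizer_centralizer' := by
    apply Set.Subset.antisymm
    · intro Z hZ
      refine ⟨fun k => ?_, fun k => ?_⟩
      · exact (hZ (prj V k) (prj_mem_centralizer V A k)).symm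
      · have hc : cmp V k Z ∈ Set.centralizer (Set.centralizer (A k : Set (H k →L[ℂ] H k))) := by
          intro S hS
          have h := hZ (infl V k S) (infl_mem_centralizer hi A k hS)
          ext v
          have h' := DFunLike.congr_fun h (V k v)
          have h'' : V k (S (adjoint (V k) (Z (V k v))))
              = Z (V k (S (adjoint (V k) (V k v)))) := h'
          rw [hi] at h''
          show S (adjoint (V k) (Z (V k v))) = adjoint (V k) (Z (V k (S v)))
          rw [← h'', hi]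
        rw [(A k).centralizer_centralizer] at hc
        exact hc
    · exact Set.subset_centralizer_centralizer

theorem mem_diagAlg {V : ∀ k, H k →L[ℂ] E} {hi : ∀ k v, adjoint (V k) (V k v) = v}
    {A : ∀ k, VonNeumannAlgebra (H k)} {X : E →L[ℂ] E} :
    X ∈ diagAlg V hi A ↔ (∀ k, X * prj V k = prj V k * X) ∧ ∀ k, cmp V k X ∈ A k := Iff.rfl

end Abstract

end Vale.Agent.Lib.P096.H95
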